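import Vale.Agent.P032.H357.CiCo

/-!
# P032: the partner rule in the frame `Irr U T` (wild form of the hull rule)

For `x ∈ XX U` and every colour `q` there is `y`, `|x - y| = 1`, with `q ∈ Pal U y` and either `U q` accumulates at
`y` outside `S(x)` and `q` has no source at `x` inside `S(y)`, or `U q` accumulates at `y` inside `S(x)` and `q` has
no source at `x` outside `S(y)`.  No continuity of the germs at `x` is used.

* `partner_pt`, `partner_src` : the statement with sources `Ci`, `Co`,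
* `ci_strict`, `co_strict` : solid cells are sources when the direction is strictly between two ticks,
* `ou_cases` : the cells of `y` outside `S(x)`,
* `partner_idx` : the statement with solid cells, for any `Tick K a` (clause `PH` of the programs).
-/

open Set Filter Topology Metric

noncomputable section

namespace Vale.Agent.P032.H827

open Vale.Agent.P032.Six Vale.Agent.P032.H892 Vale.Agent.P032.H913 Vale.Agent.P032.S5.H767 Vale.Agent.P032.H357

variable {U : Fin 6 → Set ℂ} {T : ℂ → Set (Fin 6)}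

/-- **Partner rule**, two-point form -/
theorem partner_pt (h : Irr U T) {x : ℂ} (hx : x ∈ XX U) (q : Fin 6) : ∃ y, dist x y = 1 ∧ q ∈ Pal U y ∧
    ((Ou (U q) y x ∧ ¬ Ci U q x y) ∨ (In (U q) y x ∧ ¬ Co U q x y)) := by
  obtain ⟨y, hxy, hq⟩ := h.partner_XX hx q
  refine ⟨y, hxy, hq, ?_⟩
  rcases in_or_ou (c := x) (mem_closure_iff_frequently.1 hq) with h1 | h1
  · exact Or.inr ⟨h1, fun hc => hc.inn h h1⟩
  · exact Or.inl ⟨h1, fun hc => hc.ou h h1⟩

theorem dir_add_int (u : ℝ) (n : ℤ) : dir (u + 6 * n) = dir u := by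
  rcases Int.eq_nat_or_neg n with ⟨m, rfl | rfl⟩
  · have := dir_per u m
    simpa using this
  · have := dir_per (u + 6 * ((-(m : ℤ) : ℤ) : ℝ)) m
    rw [← this]
    congr 1
    push_cast
    ring

/-- **Partner rule** with the direction -/
theorem partner_src (h : Irr U T) {x : ℂ} (hx : x ∈ XX U) (q : Fin 6) (b : ℝ) : ∃ u ∈ Ico b (b + 6),
    q ∈ Pal U (x + dir u) ∧ ((Ou (U q) (x + dir u) x ∧ ¬ Ci U q x (x + dir u)) ∨
      (In (U q) (x + dir u) x ∧ ¬ Co U q x (x + dir u))) := by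
  obtain ⟨y, hxy, hq, h1⟩ := partner_pt h hx q
  have hn : ‖y - x‖ = 1 := by rw [← dist_eq_norm, dist_comm]; exact hxy
  obtain ⟨t, ht⟩ := exists_cis hn
  set u0 := t / (Real.pi / 3) with hu0
  have e0 : dir u0 = y - x := by
    rw [ht]; unfold dir; congr 1; rw [hu0]; field_simp
  set n := ⌊(u0 - b) / 6⌋ with hn'
  have h2 := Int.floor_le ((u0 - b) / 6)
  have h3 := Int.lt_floor_add_one ((u0 - b) / 6)
  rw [← hn'] at h2 h3
  have e1 : dir (u0 + 6 * ((-n : ℤ) : ℝ)) = y - x := by rw [dir_add_int, e0]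
  have e2 : x + dir (u0 + 6 * ((-n : ℤ) : ℝ)) = y := by rw [e1]; ring
  refine ⟨u0 + 6 * ((-n : ℤ) : ℝ), ⟨?_, ?_⟩, ?_⟩
  · push_cast; linarith
  · push_cast; linarith
  · rw [e2]; exact ⟨hq, h1⟩

/-- a point of an open set outside `S(y - dir a s)`: away from it or between the two circles -/
theorem ou_cases {S : Set ℂ} (hS : IsOpen S) {K : ℕ} {a : ℕ → ℝ} (A : Tick K a) {y : ℂ} {s : ℕ}
    (h : Ou S y (y - dir (a s))) : HI S y a s ∨ Cl S y a 2 s ∨ Cl S y a 2 (s + 3 * K) := by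
  have h1 := ou_strict' hS h
  have h2 : ∃ᶠ w in 𝓝 y, (w ∈ S ∧ dist w (y + dir (a s)) < 1) ∨
      (w ∈ S ∧ 1 < dist w (y - dir (a s)) ∧ 1 ≤ dist w (y + dir (a s))) :=
    h1.mono fun w hw => (lt_or_ge (dist w (y + dir (a s))) 1).imp (fun h3 => ⟨hw.1, h3⟩)
      fun h3 => ⟨hw.1, hw.2, h3⟩
  rcases Filter.frequently_or_distrib.1 h2 with h3 | h3
  · exact Or.inl h3
  · right
    set S' : Set ℂ := {w | w ∈ S ∧ 1 < dist w (y - dir (a s)) ∧ 1 ≤ dist w (y + dir (a s))} with hS'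
    have h4 : ∃ᶠ w in 𝓝 y, w ∈ S' ∧ w ≠ y := by
      refine h3.mono fun w hw => ⟨hw, ?_⟩
      rintro rfl
      have h5 := hw.2.1
      rw [dist_eq_norm, sub_sub_cancel, norm_dir] at h5
      exact lt_irrefl _ h5
    obtain ⟨θ, hθ, hd⟩ := exists_dir h4 (ra a s)
    have hd : ∃ᶠ p in 𝓝 ((0 : ℝ), θ), p ∈ PS S' y := hd
    have e1 : ra a s = a s + 3 / 2 := rfl
    -- the direction is orthogonal
    have h6 : θ = ra a s ∨ θ = ra a s + 3 := by
      by_contra hcon
      push Not at hcon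
      rcases lt_or_ge θ (ra a s + 3) with h7 | h7
      · have h8 : Real.cos ((θ - a s) * (Real.pi / 3)) < 0 := by
          refine cos_neg_of ?_ ?_
          · have := lt_of_le_of_ne hθ.1 (Ne.symm hcon.1); linarith
          · linarith
        have h9 : 0 < Real.cos ((θ - (a s + 3)) * (Real.pi / 3)) := by
          rw [show (θ - (a s + 3)) * (Real.pi / 3) = (θ - a s) * (Real.pi / 3) - Real.pi by ring,
            Real.cos_sub_pi]
          linarith
        have h10 := ev_in (x := y) h9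
        obtain ⟨p, h11, h12⟩ := (hd.and_eventually h10).exists
        have h13 := h12 h11.1
        have e2 : y + dir (a s + 3) = y - dir (a s) := by rw [dir_add_three, ← sub_eq_add_neg]
        rw [e2] at h13
        exact absurd h11.2.2.1 (not_lt.2 h13.le)
      · have h8 : 0 < Real.cos ((θ - a s) * (Real.pi / 3)) :=
          CK.cos_pos_six (by have := lt_of_le_of_ne h7 (Ne.symm hcon.2); linarith) (by linarith [hθ.2])
        obtain ⟨p, h11, h12⟩ := (hd.and_eventually (ev_in (x := y) h8)).exists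
        exact absurd h11.2.2.2 (not_le.2 (h12 h11.1))
    rcases h6 with rfl | h6
    · left
      refine (cl_pos (by norm_num)).2 (hd.mono fun p hp => ⟨⟨hp.1, hp.2.1⟩, zn_two.2 ⟨hp.2.2.2, hp.2.2.1.le⟩⟩)
    · right
      rw [h6, ← CK.ra_half A] at hd
      refine (cl_pos (by norm_num)).2 (hd.mono fun p hp => ⟨⟨hp.1, hp.2.1⟩, zn_two.2 ?_⟩)
      rw [CK.dir_half A, ← sub_eq_add_neg, sub_neg_eq_add]
      exact ⟨hp.2.2.1.le, hp.2.2.2⟩

/-- the cell `(k, s + d)` meets the inside of `S(x + dir u)`, `a s < u < a (s + 1)` -/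
def InB (K k d : ℕ) : Prop := (k = 0 ∧ (d = 0 ∨ 3 * K ≤ d)) ∨ (k ≠ 0 ∧ (d = 0 ∨ 3 * K + 1 ≤ d))

/-- the cell `(k, s + d)` meets the outside of `S(x + dir u)`, `a s < u < a (s + 1)` -/
def OutB (K k d : ℕ) : Prop := (k = 0 ∧ d ≤ 3 * K) ∨ (k ≠ 0 ∧ 1 ≤ d ∧ d ≤ 3 * K)

section
variable {K : ℕ} {a : ℕ → ℝ} (A : Tick K a) {x : ℂ} {q : Fin 6} {s : ℕ} {u : ℝ}
include A

theorem le_one (s : ℕ) : a (s + 1) ≤ a s + 1 := by
  rw [← A.per s]
  exact A.mono.monotone (by have := A.pos; omega)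

theorem ci_strict (h : Irr U T) (h1 : a s < u) (h2 : u < a (s + 1)) {k d : ℕ} (hd : d < 6 * K)
    (hin : InB K k d) (hs : So T x a k (s + d) q) : Ci U q x (x + dir u) := by
  have hle := le_one A s
  have e0 : ra a s = a s + 3 / 2 := rfl
  have e1 : ra a (s + 1) = a (s + 1) + 3 / 2 := rfl
  have e3 := CK.ra_half A (s + 1)
  have e6 := CK.ra_full A s
  rcases hin with ⟨rfl, rfl | h3⟩ | ⟨h0, rfl | h3⟩
  · refine solid_sector (θ := (ra a s + (u + 3 / 2)) / 2) h ⟨?_, ?_⟩ hs (po_in ?_)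
    · rw [add_zero]; linarith
    · rw [add_zero]; linarith
    · exact Real.cos_pos_of_mem_Ioo ⟨by have := Real.pi_pos; nlinarith, by have := Real.pi_pos; nlinarith⟩
  · have h4 : ra a (s + 1 + 3 * K) ≤ ra a (s + d + 1) := CK.ra_le A (by omega)
    have h5 : ra a (s + d + 1) ≤ ra a (s + 6 * K) := CK.ra_le A (by omega)
    have h6 : ra a (s + d) < ra a (s + d + 1) := CK.ra_lt A (by omega)
    have h7 : max (ra a (s + d)) (u + 9 / 2) < ra a (s + d + 1) := max_lt h6 (by linarith)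
    have h8 := le_max_left (ra a (s + d)) (u + 9 / 2)
    have h9 := le_max_right (ra a (s + d)) (u + 9 / 2)
    refine solid_sector (θ := (max (ra a (s + d)) (u + 9 / 2) + ra a (s + d + 1)) / 2) h ⟨?_, ?_⟩ hs
      (po_in (CK.cos_pos_six ?_ ?_)) <;> linarith
  · rw [add_zero] at hs
    refine ci_ray h h0 hs ?_
    exact Real.cos_pos_of_mem_Ioo ⟨by have := Real.pi_pos; nlinarith, by have := Real.pi_pos; nlinarith⟩
  · have h4 : ra a (s + 1 + 3 * K) ≤ ra a (s + d) := CK.ra_le A (by omega)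
    have h5 : ra a (s + d) < ra a (s + 6 * K) := CK.ra_lt A (by omega)
    exact ci_ray h h0 hs (CK.cos_pos_six (by linarith) (by linarith))

theorem co_strict (h : Irr U T) (h1 : a s < u) (h2 : u < a (s + 1)) {k d : ℕ}
    (hout : OutB K k d) (hs : So T x a k (s + d) q) : Co U q x (x + dir u) := by
  have e0 : ra a s = a s + 3 / 2 := rfl
  have e1 : ra a (s + 1) = a (s + 1) + 3 / 2 := rfl
  have e3 := CK.ra_half A s
  rcases hout with ⟨rfl, h3⟩ | ⟨h0, h3, h4⟩
  · have h4 : ra a (s + 1) ≤ ra a (s + d + 1) := CK.ra_le A (by omega)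
    have h5 : ra a (s + d) ≤ ra a (s + 3 * K) := CK.ra_le A (by omega)
    have h6 : ra a (s + d) < ra a (s + d + 1) := CK.ra_lt A (by omega)
    have h7 : max (ra a (s + d)) (u + 3 / 2) < min (ra a (s + d + 1)) (u + 9 / 2) :=
      max_lt (lt_min h6 (by linarith)) (lt_min (by linarith) (by linarith))
    have h8 := le_max_left (ra a (s + d)) (u + 3 / 2)
    have h9 := le_max_right (ra a (s + d)) (u + 3 / 2)
    have h10 := min_le_left (ra a (s + d + 1)) (u + 9 / 2)
    have h11 := min_le_right (ra a (s + d + 1)) (u + 9 / 2)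
    refine solid_sector
      (θ := (max (ra a (s + d)) (u + 3 / 2) + min (ra a (s + d + 1)) (u + 9 / 2)) / 2) h ⟨?_, ?_⟩ hs
      (po_out (cos_neg_of ?_ ?_)) <;> linarith
  · have h5 : ra a (s + 1) ≤ ra a (s + d) := CK.ra_le A (by omega)
    have h6 : ra a (s + d) ≤ ra a (s + 3 * K) := CK.ra_le A (by omega)
    exact co_ray h h0 hs (cos_neg_of (by linarith) (by linarith))

/-- **Partner rule, index form** (clause `PH`).  `¬ So T x a k j q` says that a colour different from `q` has pure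
points in the cell `(k, j)` of `x`. -/
theorem partner_idx (h : Irr U T) (hx : x ∈ XX U) (q : Fin 6) : ∃ s < 6 * K,
    ((HI (U q) (x + dir (a s)) a s ∨ Cl (U q) (x + dir (a s)) a 2 s ∨ Cl (U q) (x + dir (a s)) a 2 (s + 3 * K)) ∧
      ∀ k d, k ≤ 3 → d < 6 * K → InC K k d → ¬ So T x a k (s + d) q) ∨
    (HI (U q) (x + dir (a s)) a (s + 3 * K) ∧
      ∀ k d, k ≤ 3 → d < 6 * K → ¬ InC K k d → ¬ So T x a k (s + d) q) ∨
    (∀ k d, k ≤ 3 → d < 6 * K → InB K k d → ¬ So T x a k (s + d) q) ∨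
    ∀ k d, k ≤ 3 → d < 6 * K → OutB K k d → ¬ So T x a k (s + d) q := by
  obtain ⟨u, hu, hq, h1⟩ := partner_src h hx q (a 0)
  have e0 : ra a 0 = a 0 + 3 / 2 := rfl
  obtain ⟨s, -, hs, h2⟩ := CK.exists_tick A (θ := u + 3 / 2) (s := 0) ⟨by linarith [hu.1], by linarith [hu.2]⟩
  refine ⟨s, by omega, ?_⟩
  have e1 : ra a s = a s + 3 / 2 := rfl
  have e2 : ra a (s + 1) = a (s + 1) + 3 / 2 := rfl
  rcases h2 with h2 | h2
  · have e3 : u = a s := by linarith
    subst e3
    rcases h1 with ⟨h3, h4⟩ | ⟨h3, h4⟩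
    · refine Or.inl ⟨ou_cases (h.mx.isOpen q) A (by rw [add_sub_cancel_right]; exact h3),
        fun k d hk hd hin hso => h4 (ci_cell A h hk hd hin hso)⟩
    · refine Or.inr (Or.inl ⟨(CK.hi_half A).2 (by rw [add_sub_cancel_right]; exact h3),
        fun k d hk hd hout hso => h4 (co_cell A h hk hd hout hso)⟩)
  · have h3 : a s < u := by linarith [h2.1]
    have h4 : u < a (s + 1) := by linarith [h2.2]
    rcases h1 with ⟨-, h5⟩ | ⟨-, h5⟩
    · exact Or.inr (Or.inr (Or.inl fun k d _ hd hin hso => h5 (ci_strict A h h3 h4 hd hin hso)))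
    · exact Or.inr (Or.inr (Or.inr fun k d _ _ hout hso => h5 (co_strict A h h3 h4 hout hso)))

end

/-- **Weak form** (weak tree of the programs): some open half plane is met by no solid cell of colour `q` -/
theorem partner_half (h : Irr U T) {x : ℂ} (hx : x ∈ XX U) {K : ℕ} {a : ℕ → ℝ} (A : Tick K a) (q : Fin 6) :
    ∃ s < 6 * K, (∀ k d, k ≤ 3 → d < 6 * K → InC K k d → ¬ So T x a k (s + d) q) ∨
      (∀ k d, k ≤ 3 → d < 6 * K → ¬ InC K k d → ¬ So T x a k (s + d) q) ∨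
      (∀ k d, k ≤ 3 → d < 6 * K → InB K k d → ¬ So T x a k (s + d) q) ∨
      ∀ k d, k ≤ 3 → d < 6 * K → OutB K k d → ¬ So T x a k (s + d) q := by
  obtain ⟨s, hs, h1 | h1 | h1 | h1⟩ := partner_idx A h hx q
  · exact ⟨s, hs, Or.inl h1.2⟩
  · exact ⟨s, hs, Or.inr (Or.inl h1.2)⟩
  · exact ⟨s, hs, Or.inr (Or.inr (Or.inl h1))⟩
  · exact ⟨s, hs, Or.inr (Or.inr (Or.inr h1))⟩

end Vale.Agent.P032.H827
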